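import Vale.Agent.Lib.P348.helper23.Basics

/-!
Pool job P348-K4 (second copy): the energy of any vector on the spin-one ring is at least
`L * nsq ψ - 6 * ∑ j, uw j ψ`. The file is self-contained: it proves its own copy of the norm
identity for the raising operator (pool job K3, `nsq_raise`).
-/

namespace Vale.Agent.Lib.P348.H25

open Matrix

open Vale.Agent.Lib.P361 Vale.Agent.Lib.P348

/-- The inner product is the dot product with the conjugated first vector. -/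
theorem ip_eq_dot {n : Type*} [Fintype n] (φ ψ : n → ℂ) : ip φ ψ = star φ ⬝ᵥ ψ := by
  rw [ip_def]
  rfl

/-- The adjoint identity. -/
theorem ip_adj {n : Type*} [Fintype n] (A : Matrix n n ℂ) (φ χ : n → ℂ) :
    ip φ (Aᴴ *ᵥ χ) = ip (A *ᵥ φ) χ := by
  rw [ip_eq_dot, ip_eq_dot, Matrix.dotProduct_mulVec, Matrix.star_mulVec]

/-- The squared norm as an inner product. -/
theorem nsq_eq_ip {n : Type*} [Fintype n] (ψ : n → ℂ) : ((nsq ψ : ℝ) : ℂ) = ip ψ ψ := by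
  rw [nsq_def, ip_def, Complex.ofReal_sum]
  refine Finset.sum_congr rfl fun σ _ => ?_
  rw [Complex.ofReal_pow, Complex.star_def, Complex.conj_mul']

theorem nsq_mulVec {n : Type*} [Fintype n] (A : Matrix n n ℂ) (ψ : n → ℂ) :
    nsq (A *ᵥ ψ) = (ip ψ ((Aᴴ * A) *ᵥ ψ)).re := by
  rw [← Matrix.mulVec_mulVec, ip_adj, ← nsq_eq_ip, Complex.ofReal_re]

/-- The inner product of a vector with its image under a diagonal matrix with real entries. -/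
theorem ip_diagonal_re {n : Type*} [Fintype n] [DecidableEq n] (v : n → ℝ) (ψ : n → ℂ) :
    (ip ψ (diagonal (fun σ => ((v σ : ℝ) : ℂ)) *ᵥ ψ)).re = ∑ σ, v σ * ‖ψ σ‖ ^ 2 := by
  rw [ip_def, Complex.re_sum]
  refine Finset.sum_congr rfl fun σ _ => ?_
  rw [Matrix.mulVec_diagonal]
  have h : star (ψ σ) * (((v σ : ℝ) : ℂ) * ψ σ) = (((v σ * ‖ψ σ‖ ^ 2 : ℝ)) : ℂ) := by
    rw [Complex.ofReal_mul, Complex.ofReal_pow, ← Complex.conj_mul' (ψ σ), Complex.star_def]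
    ring
  rw [h, Complex.ofReal_re]

theorem raise_adj_mul {L : ℕ} (j : Fin L) :
    (raise j)ᴴ * raise j =
      diagonal (fun σ : Fin L → Fin 3 =>
        (((((σ j : Fin 3) : ℕ) : ℝ) * ((3 : ℝ) - (((σ j : Fin 3) : ℕ) : ℝ)) : ℝ) : ℂ)) := by
  rw [raise_def, siteOp_conjTranspose, siteOp_mul]
  have h : (spinPlus 3)ᴴ * spinPlus 3 = spinMinus 3 * spinPlus 3 := rfl
  rw [h, spinMinus_mul_spinPlus, siteOp_diagonal]
  norm_num

/-- Own copy of pool job K3, `nsq_raise`. -/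
theorem nsq_raise {L : ℕ} (j : Fin L) (ψ : (Fin L → Fin 3) → ℂ) :
    nsq (raise j *ᵥ ψ) = 2 * uw j ψ := by
  rw [nsq_mulVec, raise_adj_mul, ip_diagonal_re, uw_def, Finset.mul_sum]
  refine Finset.sum_congr rfl fun σ _ => ?_
  have h3 : ∀ i : Fin 3, ((i : ℕ) : ℝ) * ((3 : ℝ) - ((i : ℕ) : ℝ)) * ‖ψ σ‖ ^ 2 =
      2 * (if i = 0 then 0 else ‖ψ σ‖ ^ 2) := by
    intro i
    fin_cases i
    · simp
    · norm_num
    · norm_num
  exact h3 (σ j)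

/-- Pointwise lower bound for the real part of a conjugate product. -/
theorem re_star_mul_ge (z w : ℂ) : -((‖z‖ ^ 2 + ‖w‖ ^ 2) / 2) ≤ (star z * w).re := by
  rw [Complex.star_def, Complex.mul_re, Complex.conj_re, Complex.conj_im, Complex.sq_norm,
    Complex.sq_norm, Complex.normSq_apply, Complex.normSq_apply]
  nlinarith [sq_nonneg (z.re + w.re), sq_nonneg (z.im + w.im)]

theorem ip_re_ge {n : Type*} [Fintype n] (a b : n → ℂ) :
    -((nsq a + nsq b) / 2) ≤ (ip a b).re := by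
  rw [ip_def, Complex.re_sum, nsq_def, nsq_def, ← Finset.sum_add_distrib, Finset.sum_div,
    ← Finset.sum_neg_distrib]
  exact Finset.sum_le_sum fun σ _ => re_star_mul_ge (a σ) (b σ)

theorem zz_eq {L : ℕ} (x y : Fin L) :
    cSz 3 x * cSz 3 y = diagonal (fun σ : Fin L → Fin 3 =>
      ((((1 : ℝ) - (((σ x : Fin 3) : ℕ) : ℝ)) * ((1 : ℝ) - (((σ y : Fin 3) : ℕ) : ℝ)) : ℝ) : ℂ)) := by
  have hx : ∀ z : Fin L, cSz 3 z =
      diagonal (fun σ : Fin L → Fin 3 => (((1 : ℝ) - (((σ z : Fin 3) : ℕ) : ℝ) : ℝ) : ℂ)) := by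
    intro z
    have h : cSz 3 z = siteOp z
        (diagonal fun i : Fin 3 => (((((3 : ℕ) : ℝ) - 1) / 2 - ((i : ℕ) : ℝ) : ℝ) : ℂ)) := rfl
    rw [h, siteOp_diagonal]
    congr 1
    funext σ
    norm_num
  rw [hx x, hx y, diagonal_mul_diagonal]
  congr 1
  funext σ
  push_cast
  ring

/-- The `S^z S^z` part of a bond. -/
theorem zz_lower {L : ℕ} (x y : Fin L) (ψ : (Fin L → Fin 3) → ℂ) :
    nsq ψ - 2 * uw x ψ - 2 * uw y ψ ≤ (ip ψ ((cSz 3 x * cSz 3 y) *ᵥ ψ)).re := by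
  rw [zz_eq, ip_diagonal_re, nsq_def, uw_def, uw_def, Finset.mul_sum, Finset.mul_sum,
    ← Finset.sum_sub_distrib, ← Finset.sum_sub_distrib]
  refine Finset.sum_le_sum fun σ _ => ?_
  have key : ∀ (i k : Fin 3) (t : ℝ), 0 ≤ t →
      t - 2 * (if i = 0 then 0 else t) - 2 * (if k = 0 then 0 else t) ≤
        ((1 : ℝ) - ((i : ℕ) : ℝ)) * ((1 : ℝ) - ((k : ℕ) : ℝ)) * t := by
    intro i k t ht
    fin_cases i <;> fin_cases k <;> norm_num <;> linarith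
  exact key (σ x) (σ y) _ (by positivity)

/-- The flip part of a bond. -/
theorem flip_lower {L : ℕ} {x y : Fin L} (hxy : x ≠ y) (ψ : (Fin L → Fin 3) → ℂ) :
    -(uw x ψ + uw y ψ) ≤
      (ip ψ (((1 / 2 : ℂ) • (cSp 3 x * (cSp 3 y)ᴴ + (cSp 3 x)ᴴ * cSp 3 y)) *ᵥ ψ)).re := by
  have hS := spinSys (Λ := Fin L) 3
  have hr : ∀ z : Fin L, cSp 3 z = raise z := fun z => by rw [raise_def]; rfl
  have h1 : ip ψ (((cSp 3 x)ᴴ * cSp 3 y) *ᵥ ψ) = ip (raise x *ᵥ ψ) (raise y *ᵥ ψ) := by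
    rw [← Matrix.mulVec_mulVec, ip_adj, hr, hr]
  have h2 : ip ψ ((cSp 3 x * (cSp 3 y)ᴴ) *ᵥ ψ) = ip (raise y *ᵥ ψ) (raise x *ᵥ ψ) := by
    rw [hS.pm x y hxy, ← Matrix.mulVec_mulVec, ip_adj, hr, hr]
  have e : ip ψ (((1 / 2 : ℂ) • (cSp 3 x * (cSp 3 y)ᴴ + (cSp 3 x)ᴴ * cSp 3 y)) *ᵥ ψ) =
      (((1 / 2 : ℝ)) : ℂ) *
        (ip (raise y *ᵥ ψ) (raise x *ᵥ ψ) + ip (raise x *ᵥ ψ) (raise y *ᵥ ψ)) := by
    rw [Matrix.smul_mulVec, Matrix.add_mulVec, ip_eq_dot, dotProduct_smul, dotProduct_add,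
      ← ip_eq_dot, ← ip_eq_dot, h1, h2, smul_eq_mul]
    norm_num
  rw [e, Complex.re_ofReal_mul, Complex.add_re]
  have g1 := ip_re_ge (raise y *ᵥ ψ) (raise x *ᵥ ψ)
  have g2 := ip_re_ge (raise x *ᵥ ψ) (raise y *ᵥ ψ)
  rw [nsq_raise, nsq_raise] at g1 g2
  linarith

/-- One bond. -/
theorem bond_lower {L : ℕ} {x y : Fin L} (hxy : x ≠ y) (ψ : (Fin L → Fin 3) → ℂ) :
    nsq ψ - 3 * uw x ψ - 3 * uw y ψ ≤ (ip ψ (bond (cSp 3) (cSz 3) x y *ᵥ ψ)).re := by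
  have hb : bond (cSp (Λ := Fin L) 3) (cSz 3) x y =
      cSz 3 x * cSz 3 y + (1 / 2 : ℂ) • (cSp 3 x * (cSp 3 y)ᴴ + (cSp 3 x)ᴴ * cSp 3 y) := rfl
  rw [hb, Matrix.add_mulVec, ip_eq_dot, dotProduct_add, ← ip_eq_dot, ← ip_eq_dot, Complex.add_re]
  have h1 := zz_lower x y ψ
  have h2 := flip_lower hxy ψ
  linarith

theorem ne_finRotate {L : ℕ} (hL : 2 ≤ L) (x : Fin L) : x ≠ finRotate L x := by
  obtain ⟨n, rfl⟩ : ∃ n, L = n + 2 := ⟨L - 2, by omega⟩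
  intro h
  have h2 := congrArg Fin.val h
  rw [coe_finRotate] at h2
  split_ifs at h2 with h3
  · rw [h3] at h2
    simp at h2
  · omega

/-- Pool job K4. -/
theorem energy_lower {L : ℕ} (hL : 2 ≤ L) (ψ : (Fin L → Fin 3) → ℂ) :
    (L : ℝ) * nsq ψ - 6 * ∑ j : Fin L, uw j ψ ≤ (ip ψ (ringH L *ᵥ ψ)).re := by
  have hsum : ip ψ (ringH L *ᵥ ψ) =
      ∑ x : Fin L, ip ψ (bond (cSp 3) (cSz 3) x (finRotate L x) *ᵥ ψ) := by
    rw [defs_aux_ringH, Matrix.sum_mulVec, ip_eq_dot, dotProduct_sum]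
    refine Finset.sum_congr rfl fun x _ => ?_
    rw [spinDot_eq_bond, ip_eq_dot]
  rw [hsum, Complex.re_sum]
  have hrot : ∑ x : Fin L, uw (finRotate L x) ψ = ∑ x : Fin L, uw x ψ :=
    Equiv.sum_comp (finRotate L) (fun x => uw x ψ)
  calc (L : ℝ) * nsq ψ - 6 * ∑ j : Fin L, uw j ψ
      = ∑ x : Fin L, (nsq ψ - 3 * uw x ψ - 3 * uw (finRotate L x) ψ) := by
        rw [Finset.sum_sub_distrib, Finset.sum_sub_distrib, ← Finset.mul_sum, ← Finset.mul_sum,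
          hrot, Finset.sum_const, Finset.card_univ, Fintype.card_fin, nsmul_eq_mul]
        ring
    _ ≤ ∑ x : Fin L, (ip ψ (bond (cSp 3) (cSz 3) x (finRotate L x) *ᵥ ψ)).re :=
        Finset.sum_le_sum fun x _ => bond_lower (ne_finRotate hL x) ψ

end Vale.Agent.Lib.P348.H25
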